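import Crest.Agent.H9.RI.Defs2

/-! `T_blk`: block lengths and density of the cuts. -/

set_option autoImplicit false

namespace Crest.Agent.H1.RI

open Crest.Agent.H9.RI Crest.Agent.H2.RP Filter Set MeasureTheory
open scoped Classical

lemma blk_mv_mv (θ : ℝ) (x : Cir) (a b : ℤ) : mv θ (mv θ x a) b = mv θ x (a + b) := by
  unfold mv
  rw [add_assoc, ← AddCircle.coe_add]
  congr 2
  push_cast
  ring

lemma blk_mv_zero (θ : ℝ) (x : Cir) : mv θ x 0 = x := by
  unfold mv
  simp

lemma blk_mp (θ : ℝ) (a : ℤ) : MeasurePreserving (fun x => mv θ x a) mu mu :=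
  measurePreserving_add_right mu _

theorem t_blk : T_blk := by
  intro hcnt θ r ι L N I h b C hN hL
  have hι : 0 ≤ ι := le_trans measureReal_nonneg C.small
  have hL0 : 0 < L := by omega
  have hLr : (1 : ℝ) ≤ L := by exact_mod_cast hL0
  have mm : ∀ a : ℤ, Measurable fun x => mv θ x a := fun a => (blk_mp θ a).measurable
  have mS : MeasurableSet {x | b (mv θ x 1) ≠ b x} :=
    (measurableSet_eq_fun (C.mb.comp (mm 1)) C.mb).compl
  have part2 : mu.real {x | b (mv θ x 1) ≠ b x} ≤ 2 / L + 2 * L * ι := by
    set Y : Set Cir := ⋃ i ∈ Finset.range (N + L), (fun x => mv θ x ((L : ℤ) - i)) ⁻¹' I with hY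
    have mY : MeasurableSet Y := Finset.measurableSet_biUnion _ fun _ _ => mm _ C.mI
    have hYle : mu.real Y ≤ 2 * L * ι := by
      refine (measureReal_biUnion_finset_le _ _).trans ?_
      have : ∀ i ∈ Finset.range (N + L),
          mu.real ((fun x => mv θ x ((L : ℤ) - i)) ⁻¹' I) ≤ ι := fun i _ => by
        rw [(blk_mp θ _).measureReal_preimage C.mI.nullMeasurableSet]
        exact C.small
      refine (Finset.sum_le_sum this).trans ?_
      simp only [Finset.sum_const, Finset.card_range, nsmul_eq_mul]
      apply mul_le_mul_of_nonneg_right _ hι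
      have : N + L ≤ 2 * L := by omega
      exact_mod_cast this
    have key := hcnt θ {x | b (mv θ x 1) ≠ b x} Y L (fun k => ((k : ℕ) : ℤ)) 2 mS mY hL0
      (by norm_num) (fun x hx => by
        have hx' : ∀ i : ℕ, i < N + L → mv θ x ((L : ℤ) - i) ∉ I := by
          intro i hi hI
          apply hx
          simp only [hY, mem_iUnion, Finset.mem_range]
          exact ⟨i, hi, hI⟩
        have hNx : N ≤ h x := by
          by_contra hlt
          apply hx' (L + h x) (by omega)
          have e : (L : ℤ) - ((L + h x : ℕ) : ℤ) = -(h x : ℤ) := by push_cast; ring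
          rw [e]
          exact C.hI x
        have ind : ∀ n : ℕ, n ≤ L → h (mv θ x n) = h x + n ∧
            (∑ i ∈ Finset.range n,
              if mv θ x (i : ℤ) ∈ {x | b (mv θ x 1) ≠ b x} then 1 else 0) + b x ≤
                b (mv θ x n) := by
          intro n
          induction n with
          | zero => intro _; simp [blk_mv_zero]
          | succ n ih =>
            intro hn
            obtain ⟨h1, h2⟩ := ih (by omega)
            have e : mv θ (mv θ x n) 1 = mv θ x ((n + 1 : ℕ) : ℤ) := by
              rw [blk_mv_mv]; push_cast; rfl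
            have hnI : mv θ (mv θ x n) 1 ∉ I := by
              rw [e]
              have := hx' (L - (n + 1)) (by omega)
              have e2 : (L : ℤ) - ((L - (n + 1) : ℕ) : ℤ) = ((n + 1 : ℕ) : ℤ) := by omega
              rwa [e2] at this
            have h3 := C.hs _ hnI
            have h4 := C.inc (mv θ x n) (by omega)
            rw [Finset.sum_range_succ, ← e]
            refine ⟨by omega, ?_⟩
            by_cases hS : mv θ x (n : ℤ) ∈ {x | b (mv θ x 1) ≠ b x}
            · rw [if_pos hS]
              have hS' : b (mv θ (mv θ x n) 1) ≠ b (mv θ x n) := hS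
              omega
            · rw [if_neg hS]
              omega
        obtain ⟨h1, h2⟩ := ind L le_rfl
        have h3 := (C.lo x hNx).1
        have h4 := (C.lo (mv θ x L) (by omega)).2
        rw [h1, Nat.add_div_right _ hL0] at h4
        have h5 : h x / L ≤ (h x - N) / L + 1 := by
          rw [← Nat.add_div_right _ hL0]
          exact Nat.div_le_div_right (by omega)
        have h6 : (Finset.univ.filter fun k : Fin L =>
            mv θ x ((k : ℕ) : ℤ) ∈ {x | b (mv θ x 1) ≠ b x}).card ≤ 2 := by
          rw [Finset.card_filter, Fin.sum_univ_eq_sum_range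
            (fun i : ℕ => if mv θ x (i : ℤ) ∈ {x | b (mv θ x 1) ≠ b x} then 1 else 0)]
          omega
        exact_mod_cast h6)
    linarith
  refine ⟨fun x => ?_, part2, ?_⟩
  · by_contra hcon
    push Not at hcon
    have hH : 2 * L ≤ h x := by
      by_contra hlt
      exact hcon (h x) (by omega) (Or.inr (C.hI x))
    have ind : ∀ n : ℕ, n ≤ 2 * L → h (mv θ x (-(n : ℤ))) + n = h x ∧
        b (mv θ x (-(n : ℤ))) = b x := by
      intro n
      induction n with
      | zero => intro _; simp [blk_mv_zero]
      | succ n ih =>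
        intro hn
        obtain ⟨h1, h2⟩ := ih (by omega)
        have hc := hcon n (by omega)
        rw [mem_union, not_or] at hc
        obtain ⟨hc1, hc2⟩ := hc
        have e : mv θ (mv θ x (-((n + 1 : ℕ) : ℤ))) 1 = mv θ x (-(n : ℤ)) := by
          rw [blk_mv_mv]; congr 1; push_cast; ring
        have e' : mv θ (mv θ x (-(n : ℤ))) (-1) = mv θ x (-((n + 1 : ℕ) : ℤ)) := by
          rw [blk_mv_mv]; congr 1; push_cast; ring
        have h3 := C.hs (mv θ x (-((n + 1 : ℕ) : ℤ))) (by rw [e]; exact hc2)
        rw [e] at h3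
        have h4 : b (mv θ x (-(n : ℤ))) = b (mv θ (mv θ x (-(n : ℤ))) (-1)) := by
          by_contra hne
          exact hc1 hne
        rw [e'] at h4
        exact ⟨by omega, by omega⟩
    obtain ⟨h1, h2⟩ := ind (L + N) (by omega)
    have h3 := (C.lo x (by omega)).1
    have h4 := (C.lo (mv θ x (-((L + N : ℕ) : ℤ))) (by omega)).2
    have e : h x - N = h (mv θ x (-((L + N : ℕ) : ℤ))) + L := by omega
    rw [e, Nat.add_div_right _ hL0] at h3
    omega
  · have e : {y | b y ≠ b (mv θ y (-1))} = (fun y => mv θ y (-1)) ⁻¹' {x | b (mv θ x 1) ≠ b x} := by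
      ext y
      simp only [mem_setOf_eq, mem_preimage, blk_mv_mv]
      rw [show (-1 : ℤ) + 1 = 0 by ring, blk_mv_zero]
    refine (measureReal_union_le _ _).trans ?_
    rw [e, (blk_mp θ _).measureReal_preimage mS.nullMeasurableSet]
    have := C.small
    nlinarith

end Crest.Agent.H1.RI
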