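import Crest.Agent.H9.RI.Defs2
import Crest.Agent.H7.RI.Step1

/-! `T_clock`: existence of a clock. -/

set_option autoImplicit false

namespace Crest.Agent.H1.RI

open Crest.Agent.H9.RI Crest.Agent.H2.RP Filter Set MeasureTheory
open Crest.Agent.H7.RI (mv_nat mv_neg_nat mv_one real_ball_le exists_last)
open scoped Classical

theorem t_clock : T_clock := by
  intro θ r ε L N hθ hε hN hNL hit
  have hL : 0 < L := by omega
  set t : Cir := (θ : Cir) with ht
  obtain ⟨ι, mι, h1, h2, h3⟩ := exists_last t (r := r) (N := N) (fun x => by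
    obtain ⟨i, a, b, c⟩ := hit x
    exact ⟨i, a, b, by rwa [mv_neg_nat] at c⟩)
  have hd : DenseRange fun n : ℕ => n • t :=
    denseRange_zsmul_iff_nsmul.1 (AddCircle.denseRange_zsmul_coe_iff.2 (by simpa using hθ))
  have hex : ∀ x : Cir, ∃ i : ℕ, x - i • t ∈ Metric.ball (0 : Cir) (ε / 2) := fun x => by
    obtain ⟨n, hn⟩ := hd.exists_dist_lt x (half_pos hε)
    exact ⟨n, by rwa [mem_ball_zero_iff, ← dist_eq_norm]⟩
  obtain ⟨h, mh, hspec, hmin⟩ : ∃ h : Cir → ℕ, Measurable h ∧
      (∀ x, x - h x • t ∈ Metric.ball (0 : Cir) (ε / 2)) ∧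
      ∀ x i, i < h x → x - i • t ∉ Metric.ball (0 : Cir) (ε / 2) :=
    ⟨fun x => Nat.find (hex x), measurable_find hex fun k =>
      (measurable_sub_const _) Metric.isOpen_ball.measurableSet,
      fun x => Nat.find_spec (hex x), fun x i hi => Nat.find_min (hex x) hi⟩
  have uniq : ∀ x (m : ℕ), x - m • t ∈ Metric.ball (0 : Cir) (ε / 2) →
      (∀ i, i < m → x - i • t ∉ Metric.ball (0 : Cir) (ε / 2)) → h x = m := by
    intro x m a b
    rcases lt_trichotomy (h x) m with c | c | c
    · exact absurd (hspec x) (b _ c)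
    · exact c
    · exact absurd a (hmin x _ c)
  have e : ∀ (x : Cir) (i : ℕ), x + t - (i + 1) • t = x - i • t := fun x i => by
    rw [succ_nsmul]; abel
  have e2 : ∀ (x : Cir) (i j : ℕ), x - i • t - j • t = x - (i + j) • t := fun x i j => by
    rw [add_nsmul]; abel
  have back : ∀ x (i : ℕ), i ≤ h x → h (x - i • t) = h x - i := by
    intro x i hi
    apply uniq
    · rw [e2, show i + (h x - i) = h x by omega]; exact hspec x
    · intro j hj
      rw [e2]
      exact hmin x _ (by omega)
  -- at an arc point the last visit is the point itself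
  have h4 : ∀ x, ι (x + t) = ι x + 1 ∨ ι (x + t) ≤ ι x := fun x => by
    have := h2 x; omega
  refine ⟨Metric.ball 0 (ε / 2), h, fun x => h (x - ι x • t) / L,
    Metric.isOpen_ball.measurableSet, mh, ?_, ?_, ?_, ?_, ?_, ?_, ?_⟩
  · have m1 : Measurable fun x : Cir => x - ι x • t :=
      measurable_id.sub ((measurable_of_countable fun n : ℕ => n • t).comp mι)
    exact (measurable_of_countable fun n : ℕ => n / L).comp (mh.comp m1)
  · exact (real_ball_le (half_pos hε).le).trans_eq (by ring)
  · intro x hx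
    rw [mv_one] at hx ⊢
    apply uniq
    · rw [e]; exact hspec x
    · intro i hi
      rcases i with _ | i
      · rw [zero_nsmul, sub_zero]; exact hx
      · rw [e]; exact hmin x _ (by omega)
  · intro x
    rw [mv_neg_nat]; exact hspec x
  · intro x hx
    by_contra hr
    apply hx
    rw [mv_one, h3 x hr, e]
  · intro x hx
    have a := h1 x
    rw [back x _ (by omega)]
    exact ⟨Nat.div_le_div_right (by omega), Nat.div_le_div_right (by omega)⟩
  · intro x hx
    have a := h1 x
    have a' := h1 (x + t)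
    have a2 := h2 x
    rw [mv_one]
    obtain ⟨k, hk⟩ : ∃ k, ι (x + t) = k + 1 := ⟨ι (x + t) - 1, by omega⟩
    rw [hk, e, back x _ (by omega), back x _ (by omega)]
    have b1 : (h x - ι x) / L ≤ (h x - k) / L := Nat.div_le_div_right (by omega)
    have b2 : (h x - k) / L ≤ (h x - ι x) / L + 1 := by
      rw [← Nat.add_div_right _ hL]
      exact Nat.div_le_div_right (by omega)
    omega

end Crest.Agent.H1.RI
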