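import Crest.Agent.H1.RI.Blk

/-! `T_sep`: nearby points in different blocks have different block numbers mod `P`. -/

set_option autoImplicit false

namespace Crest.Agent.H1.RI

open Crest.Agent.H9.RI Crest.Agent.H2.RP Filter Set MeasureTheory
open scoped Classical

lemma sep_mod {u v P : ℕ} (h1 : u < v) (h2 : v < u + P) : u % P ≠ v % P := by
  intro h
  have hd : P ∣ v - u := (Nat.modEq_iff_dvd' h1.le).1 h
  have := Nat.le_of_dvd (by omega) hd
  omega

theorem t_sep : T_sep := by
  intro θ r ι L N P hi I h b C hP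
  have mm : ∀ a : ℤ, Measurable fun x => mv θ x a := fun a => (blk_mp θ a).measurable
  refine ⟨⋃ i ∈ Finset.range (N + 2 * hi + 1), (fun x => mv θ x ((hi : ℤ) - i)) ⁻¹' I,
    Finset.measurableSet_biUnion _ fun _ _ => mm _ C.mI, ?_, ?_⟩
  · refine (measureReal_biUnion_finset_le _ _).trans ?_
    have : ∀ i ∈ Finset.range (N + 2 * hi + 1),
        mu.real ((fun x => mv θ x ((hi : ℤ) - i)) ⁻¹' I) ≤ ι := fun i _ => by
      rw [(blk_mp θ _).measureReal_preimage C.mI.nullMeasurableSet]
      exact C.small
    refine (Finset.sum_le_sum this).trans ?_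
    simp
  · intro x hx k hk hSB
    have hx' : ∀ a : ℤ, -((hi : ℤ) + N) ≤ a → a ≤ hi → mv θ x a ∉ I := by
      intro a h1 h2 hI
      apply hx
      simp only [mem_iUnion, Finset.mem_range]
      refine ⟨((hi : ℤ) - a).toNat, by omega, ?_⟩
      have e : (hi : ℤ) - (((hi : ℤ) - a).toNat : ℤ) = a := by omega
      show mv θ x _ ∈ I
      rw [e]
      exact hI
    have hN : ∀ a : ℤ, -(hi : ℤ) ≤ a → a ≤ hi → N ≤ h (mv θ x a) := by
      intro a h1 h2
      by_contra hlt
      have := C.hI (mv θ x a)
      rw [blk_mv_mv] at this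
      exact hx' _ (by omega) (by omega) this
    have inc : ∀ a : ℤ, -(hi : ℤ) ≤ a → a ≤ hi →
        b (mv θ x (a + 1)) = b (mv θ x a) ∨ b (mv θ x (a + 1)) = b (mv θ x a) + 1 := by
      intro a h1 h2
      have := C.inc _ (hN a h1 h2)
      rwa [blk_mv_mv] at this
    have mono' : ∀ (a : ℤ) (n : ℕ), -(hi : ℤ) ≤ a → a + n ≤ hi →
        b (mv θ x a) ≤ b (mv θ x (a + n)) ∧ b (mv θ x (a + n)) ≤ b (mv θ x a) + n := by
      intro a n h1
      induction n with
      | zero => intro _; simp
      | succ n ih =>
        intro h2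
        push_cast at h2
        obtain ⟨h3, h4⟩ := ih (by omega)
        have h5 := inc (a + n) (by omega) (by omega)
        have e : a + ((n + 1 : ℕ) : ℤ) = a + n + 1 := by push_cast; ring
        rw [e]
        omega
    have mono : ∀ a c : ℤ, -(hi : ℤ) ≤ a → a ≤ c → c ≤ hi →
        b (mv θ x a) ≤ b (mv θ x c) ∧ (b (mv θ x c) : ℤ) ≤ b (mv θ x a) + (c - a) := by
      intro a c h1 h2 h3
      have := mono' a (c - a).toNat h1 (by omega)
      have e : a + ((c - a).toNat : ℤ) = c := by omega
      rw [e] at this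
      omega
    rw [abs_le] at hk
    obtain ⟨hk1, hk2⟩ := hk
    unfold SB at hSB
    simp only [mem_ofPred_eq, not_forall, not_not] at hSB
    obtain ⟨i, hi', hD⟩ := hSB
    have hne : b (mv θ x i) ≠ b (mv θ x (i - 1)) := by
      rcases hD with hD | hD
      · have : b (mv θ x i) ≠ b (mv θ (mv θ x i) (-1)) := hD
        rwa [blk_mv_mv, ← sub_eq_add_neg] at this
      · exact absurd hD (hx' i (by omega) (by omega))
    have h0 : b x = b (mv θ x 0) := by rw [blk_mv_zero]
    have m1 := mono (i - 1) i (by omega) (by omega) (by omega)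
    rw [h0]
    rcases hi' with ⟨a1, a2⟩ | ⟨a1, a2⟩
    · have m2 := mono 0 (i - 1) (by omega) (by omega) (by omega)
      have m3 := mono i k (by omega) (by omega) (by omega)
      have m4 := mono 0 k (by omega) (by omega) (by omega)
      exact sep_mod (by omega) (by omega)
    · have m2 := mono k (i - 1) (by omega) (by omega) (by omega)
      have m3 := mono i 0 (by omega) (by omega) (by omega)
      have m4 := mono k 0 (by omega) (by omega) (by omega)
      exact (sep_mod (by omega) (by omega)).symm

end Crest.Agent.H1.RI
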